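import Vale.Agent.Lib.P329.Affine5C20

namespace Vale.Agent.Lib.P329

namespace Aff5

def cert_2_1 : List (List ℕ) := [[0,1,2,3,4,5,6,7,8,9],
  [0,3,0,2,4,4,1,3,0,2],
  [0,9,8,7,6,4,3,2,1,0],
  [0,2,0,0,4,4,3,2,0,0],
  [0,7,0,8,6,6,9,7,0,8],
  [0,2,0,3,1,4,2,0,3,0],
  [0,0,1,2,3,6,7,8,9,0],
  [0,0,0,0,4,4,2,0,0,0],
  [0,8,0,0,6,6,7,8,0,0],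
  [0,3,0,0,1,1,2,3,0,0],
  [0,2,0,1,3,3,0,2,0,1],
  [0,0,0,2,3,4,0,0,2,0],
  [0,8,0,7,9,6,8,0,7,0],
  [0,0,3,0,2,1,3,0,2,0],
  [0,0,9,8,7,3,2,1,0,0],
  [0,0,0,0,4,4,0,0,0,0],
  [0,0,0,0,6,6,8,0,0,0],
  [0,0,0,0,1,1,3,0,0,0],
  [0,1,0,0,3,3,2,1,0,0],
  [0,2,0,0,3,3,0,2,0,0],
  [0,7,0,0,9,9,8,7,0,0],
  [0,0,0,3,2,2,0,0,0,3],
  [0,8,0,9,7,7,0,8,0,9],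
  [0,0,0,0,2,4,0,0,0,0],
  [0,0,0,8,7,6,0,0,8,0],
  [0,0,0,3,2,1,0,0,3,0],
  [0,1,0,2,0,3,1,0,2,0],
  [0,0,2,0,0,3,2,0,0,0],
  [0,0,7,0,8,9,7,0,8,0],
  [0,0,2,0,3,2,0,3,0,0],
  [0,0,0,1,2,7,8,9,0,0],
  [0,0,0,0,6,6,0,0,0,0],
  [0,0,0,0,1,1,0,0,0,0],
  [0,0,0,0,3,3,1,0,0,0],
  [0,0,0,0,3,3,2,0,0,0],
  [0,0,0,0,9,9,7,0,0,0],
  [0,3,0,0,2,2,0,3,0,0],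
  [0,9,0,0,7,7,8,9,0,0],
  [0,0,0,0,2,2,0,0,0,0],
  [0,8,0,0,7,7,0,8,0,0],
  [0,2,0,0,0,0,1,2,0,0],
  [0,0,0,2,0,0,0,0,0,2],
  [0,0,0,7,8,8,0,0,0,7],
  [0,0,0,2,3,3,0,0,0,2],
  [0,1,0,0,2,2,0,1,0,0],
  [0,0,0,0,0,4,0,0,0,0],
  [0,0,0,0,8,6,0,0,0,0],
  [0,0,0,0,3,1,0,0,0,0],
  [0,0,0,1,2,3,0,0,1,0],
  [0,0,0,2,0,3,0,0,2,0],
  [0,0,0,7,8,9,0,0,7,0],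
  [0,3,0,0,0,2,3,0,0,0],
  [0,9,0,8,0,7,9,0,8,0],
  [0,0,0,0,0,2,0,0,0,0],
  [0,0,8,0,0,7,8,0,0,0],
  [0,0,3,0,0,2,3,0,0,0],
  [0,0,2,0,1,0,2,0,1,0],
  [0,0,0,0,2,0,0,2,0,0],
  [0,0,8,0,7,8,0,7,0,0],
  [0,0,0,3,0,3,0,2,0,0],
  [0,0,0,9,8,2,1,0,0,0],
  [0,0,0,0,3,3,0,0,0,0],
  [0,0,0,0,9,9,0,0,0,0],
  [0,0,0,0,2,2,3,0,0,0],
  [0,0,0,0,7,7,9,0,0,0],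
  [0,0,0,0,7,7,8,0,0,0],
  [0,0,0,0,0,0,2,0,0,0],
  [0,2,0,0,0,0,0,2,0,0],
  [0,7,0,0,8,8,0,7,0,0],
  [0,0,0,0,2,2,1,0,0,0],
  [0,0,0,0,0,0,0,0,0,0],
  [0,0,0,0,8,8,0,0,0,0],
  [0,0,0,0,0,0,3,0,0,0],
  [0,8,0,0,0,0,9,8,0,0],
  [0,0,0,8,0,0,0,0,0,8],
  [0,0,0,3,0,0,0,0,0,3],
  [0,0,0,2,1,1,0,0,0,2],
  [0,0,0,8,7,7,0,0,0,8],
  [0,3,0,0,0,0,0,3,0,0],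
  [0,9,0,0,8,8,0,9,0,0],
  [0,0,0,0,0,6,0,0,0,0],
  [0,0,0,0,0,1,0,0,0,0],
  [0,0,0,0,1,3,0,0,0,0],
  [0,0,0,0,2,3,0,0,0,0],
  [0,0,0,0,7,9,0,0,0,0],
  [0,0,0,3,0,2,0,0,3,0],
  [0,0,0,9,8,7,0,0,9,0],
  [0,0,0,8,0,7,0,0,8,0],
  [0,0,0,2,1,0,0,0,2,0],
  [0,2,0,0,0,0,2,0,0,0],
  [0,7,0,0,0,8,7,0,0,0],
  [0,2,0,0,0,3,2,0,0,0],
  [0,0,0,1,0,2,0,0,1,0],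
  [0,0,0,0,0,8,0,0,0,0],
  [0,0,0,0,0,3,0,0,0,0],
  [0,0,1,0,0,2,1,0,0,0],
  [0,0,2,0,0,0,2,0,0,0],
  [0,0,7,0,0,8,7,0,0,0],
  [0,0,0,0,3,0,0,0,3,0],
  [0,0,8,0,9,0,8,0,9,0],
  [0,0,0,0,8,0,0,8,0,0],
  [0,0,0,0,3,0,0,3,0,0],
  [0,0,1,0,2,1,0,2,0,0],
  [0,0,0,2,0,2,0,0,0,0],
  [0,0,0,7,0,7,0,8,0,0],
  [0,0,0,2,0,0,3,0,0,0],
  [0,0,0,0,1,8,9,0,0,0],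
  [0,0,0,0,7,7,0,0,0,0],
  [0,0,0,0,8,8,7,0,0,0],
  [0,0,0,0,0,0,8,0,0,0],
  [0,8,0,0,0,0,0,8,0,0],
  [0,2,0,0,1,1,0,2,0,0],
  [0,0,0,0,8,8,9,0,0,0],
  [0,0,0,0,0,0,7,0,0,0],
  [0,1,0,0,0,0,0,1,0,0],
  [0,0,0,1,0,0,0,0,0,1],
  [0,0,0,7,0,0,0,0,0,7],
  [0,0,0,8,9,9,0,0,0,8],
  [0,0,0,1,2,2,0,0,0,1],
  [0,7,0,0,0,0,0,7,0,0],
  [0,0,0,0,0,9,0,0,0,0],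
  [0,0,0,0,3,2,0,0,0,0],
  [0,0,0,0,9,7,0,0,0,0],
  [0,0,0,0,8,7,0,0,0,0],
  [0,0,0,0,2,0,0,0,0,0],
  [0,0,0,2,0,0,0,0,2,0],
  [0,0,0,7,0,8,0,0,7,0],
  [0,0,0,0,1,2,0,0,0,0],
  [0,0,0,0,3,0,0,0,0,0],
  [0,0,0,8,9,0,0,0,8,0],
  [0,8,0,0,0,0,8,0,0,0],
  [0,3,0,0,0,0,3,0,0,0],
  [0,2,0,0,0,1,2,0,0,0],
  [0,8,0,0,0,7,8,0,0,0],
  [0,0,0,3,0,0,0,0,3,0],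
  [0,0,0,9,0,8,0,0,9,0],
  [0,0,0,0,0,7,0,0,0,0],
  [0,0,3,0,0,0,3,0,0,0],
  [0,0,9,0,0,8,9,0,0,0],
  [0,0,8,0,0,0,8,0,0,0],
  [0,0,2,0,0,1,2,0,0,0],
  [0,0,0,0,2,0,0,0,2,0],
  [0,0,0,0,7,0,0,0,7,0],
  [0,0,1,0,0,0,1,0,0,0],
  [0,0,0,0,1,0,0,1,0,0],
  [0,0,0,0,7,0,0,7,0,0],
  [0,0,3,0,0,3,0,0,0,0],
  [0,0,9,0,8,9,0,8,0,0],
  [0,0,0,8,0,8,0,0,0,0],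
  [0,0,0,3,0,3,0,0,0,0],
  [0,0,0,2,0,2,0,1,0,0],
  [0,0,0,8,0,0,7,0,0,0],
  [0,0,0,0,3,0,2,0,0,0],
  [0,0,0,0,9,1,0,0,0,0],
  [0,0,0,0,1,1,2,0,0,0],
  [0,0,0,0,0,0,1,0,0,0],
  [0,8,0,0,9,9,0,8,0,0],
  [0,9,0,0,0,0,0,9,0,0],
  [0,0,0,9,0,0,0,0,0,9],
  [0,0,0,9,8,8,0,0,0,9],
  [0,0,0,0,7,8,0,0,0,0],
  [0,0,0,0,8,0,0,0,0,0],
  [0,0,0,8,0,0,0,0,8,0],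
  [0,0,0,2,0,1,0,0,2,0],
  [0,0,0,0,9,8,0,0,0,0],
  [0,0,0,0,7,0,0,0,0,0],
  [0,0,0,1,0,0,0,0,1,0],
  [0,1,0,0,0,0,1,0,0,0],
  [0,7,0,0,0,0,7,0,0,0],
  [0,8,0,0,0,9,8,0,0,0],
  [0,1,0,0,0,2,1,0,0,0],
  [0,0,0,7,0,0,0,0,7,0],
  [0,0,7,0,0,0,7,0,0,0],
  [0,0,8,0,0,9,8,0,0,0],
  [0,0,0,0,8,0,0,0,8,0],
  [0,0,9,0,0,0,9,0,0,0],
  [0,0,0,0,9,0,0,9,0,0],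
  [0,0,2,0,0,2,0,0,0,0],
  [0,0,7,0,0,7,0,0,0,0],
  [0,0,0,1,0,1,0,0,0,0],
  [0,0,0,7,0,7,0,0,0,0],
  [0,0,0,0,0,0,0,3,0,0],
  [0,0,0,8,0,8,0,9,0,0],
  [0,0,0,1,0,0,2,0,0,0],
  [0,0,0,0,7,0,8,0,0,0],
  [0,0,0,0,9,9,8,0,0,0],
  [0,0,0,0,0,0,9,0,0,0],
  [0,0,0,0,2,1,0,0,0,0],
  [0,0,0,0,1,0,0,0,0,0],
  [0,0,0,8,0,9,0,0,8,0],
  [0,0,0,9,0,0,0,0,9,0],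
  [0,9,0,0,0,0,9,0,0,0],
  [0,9,0,0,0,8,9,0,0,0],
  [0,0,0,0,1,0,0,0,1,0],
  [0,0,8,0,0,8,0,0,0,0],
  [0,0,0,9,0,9,0,0,0,0],
  [0,0,0,0,0,0,0,2,0,0],
  [0,0,0,0,0,0,0,7,0,0],
  [0,0,0,3,0,0,0,0,0,0],
  [0,0,0,9,0,0,8,0,0,0],
  [0,0,0,0,2,0,1,0,0,0],
  [0,0,0,0,8,9,0,0,0,0],
  [0,0,0,0,9,0,0,0,0,0],
  [0,0,0,0,9,0,0,0,9,0],
  [0,0,1,0,0,1,0,0,0,0],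
  [0,0,0,0,0,0,0,8,0,0],
  [0,0,0,2,0,0,0,0,0,0],
  [0,0,0,7,0,0,0,0,0,0],
  [0,0,0,0,8,0,9,0,0,0],
  [0,0,9,0,0,9,0,0,0,0],
  [0,0,0,0,0,0,0,1,0,0],
  [0,0,0,8,0,0,0,0,0,0],
  [0,0,0,0,0,0,0,9,0,0],
  [0,0,0,1,0,0,0,0,0,0],
  [0,0,0,9,0,0,0,0,0,0]]

theorem cf_2_1 : CF (absorb (d2 2 1 0 4 4) (0, 0)) :=
  cf2_of 2 1 0 4 4 2 1 0 4 4 (by decide) cert_2_1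
    (by decide +kernel) (by decide +kernel) (by decide +kernel)


end Aff5

end Vale.Agent.Lib.P329
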